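import Vale.Agent.P137.C.Meas.Slab

/-!
# Block V (part): the majorants (B) and (b')
-/

open MeasureTheory Set
open scoped ENNReal NNReal

namespace Vale.Agent.P137.C.Meas

open Vale.Agent.P137

variable {d : ℕ}

/-- The general majorant for pairs of far apart masses seen at almost the same distance. -/
theorem pairMaj (d : ℕ) : ∃ C : ℝ, 0 < C ∧ ∀ {ι ι' : Type} (I : Finset ι) (I' : Finset ι')
    (z : ι → E d) (z' : ι' → E d) (M : ι → ℝ) (M' : ι' → ℝ) (p : E d) (ρ t σ ε : ℝ),
    0 < ρ → 0 < t → 0 < σ → 0 < ε → (∀ i ∈ I, 0 ≤ M i) → (∀ i ∈ I', 0 ≤ M' i) →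
    (∀ i ∈ I, ‖z i - p‖ ≤ ρ) → (∀ i ∈ I', ‖z' i - p‖ ≤ ρ) →
    ∃ maj : E d → ℝ≥0∞, Measurable maj ∧
      ∫⁻ x in Metric.closedBall p ρ, maj x ≤ ENNReal.ofReal
        (C * ρ ^ d * √((∑ i ∈ I, M i) * (∑ i ∈ I', M' i) * (t / (ε * σ)))) ∧
      ∀ x ∈ Metric.closedBall p ρ, ∀ S ⊆ I, ∀ S' ⊆ I', ∀ b : ℝ,
        (∀ i ∈ S, ∀ j ∈ S', |‖x - z i‖ - ‖x - z' j‖| ≤ t) →
        ε * b ^ 2 ≤ ∑ i ∈ S, ∑ j ∈ S', (if σ < ‖z i - z' j‖ then M i * M' j else 0) →
        ENNReal.ofReal b ≤ maj x := by
  obtain ⟨C1, hC1, hslab⟩ := slab_measure d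
  have huv := U.uvol_pos (d := d)
  refine ⟨(C1 + U.uvol d) / 2, by positivity, ?_⟩
  intro ι ι' I I' z z' M M' p ρ t σ ε hρ ht hσ hε hM hM' hz hz'
  classical
  set A : ℝ := ∑ i ∈ I, M i with hA
  set A' : ℝ := ∑ i ∈ I', M' i with hA'
  have hA0 : 0 ≤ A := Finset.sum_nonneg hM
  have hA0' : 0 ≤ A' := Finset.sum_nonneg hM'
  set K : ℝ := √(A * A' * (t / (ε * σ))) with hK
  have hK0 : 0 ≤ K := Real.sqrt_nonneg _
  have hK2 : K ^ 2 = A * A' * (t / (ε * σ)) := Real.sq_sqrt (by positivity)
  -- sum over far pairs is at most `A * A'`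
  have hsum : ∀ S ⊆ I, ∀ S' ⊆ I',
      ∑ i ∈ S, ∑ j ∈ S', (if σ < ‖z i - z' j‖ then M i * M' j else 0) ≤ A * A' := by
    intro S hS S' hS'
    calc ∑ i ∈ S, ∑ j ∈ S', (if σ < ‖z i - z' j‖ then M i * M' j else 0)
        ≤ ∑ i ∈ S, ∑ j ∈ S', M i * M' j := by
          apply Finset.sum_le_sum
          intro i hi
          apply Finset.sum_le_sum
          intro j hj
          have := mul_nonneg (hM i (hS hi)) (hM' j (hS' hj))
          split_ifs
          · exact le_rfl
          · exact this
      _ = (∑ i ∈ S, M i) * (∑ j ∈ S', M' j) := by rw [Finset.sum_mul_sum]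
      _ ≤ A * A' := by
          apply mul_le_mul
          · exact Finset.sum_le_sum_of_subset_of_nonneg hS (fun i hi _ => hM i hi)
          · exact Finset.sum_le_sum_of_subset_of_nonneg hS' (fun i hi _ => hM' i hi)
          · exact Finset.sum_nonneg (fun i hi => hM' i (hS' hi))
          · exact hA0
  by_cases hK' : K = 0
  · refine ⟨fun _ => 0, measurable_const, by simp, ?_⟩
    intro x hx S hS S' hS' b _ hb
    have h1 : A * A' = 0 := by
      have : A * A' * (t / (ε * σ)) = 0 := by rw [← hK2, hK']; ring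
      rcases mul_eq_zero.1 this with h | h
      · exact h
      · exact absurd h (by positivity)
    have h2 : ε * b ^ 2 ≤ 0 := hb.trans ((hsum S hS S' hS').trans_eq h1)
    have h3 : b ^ 2 ≤ 0 := by
      by_contra h
      push Not at h
      have := mul_pos hε h
      linarith
    have h4 : b = 0 := by
      have := le_antisymm h3 (sq_nonneg b)
      exact pow_eq_zero_iff (two_ne_zero) |>.1 this
    simp [h4]
  have hKp : 0 < K := lt_of_le_of_ne hK0 (Ne.symm hK')
  -- the slabs
  let sl : ι → ι' → Set (E d) := fun i j =>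
    {x : E d | x ∈ Metric.closedBall p ρ ∧ |‖x - z i‖ - ‖x - z' j‖| ≤ t}
  have hslm : ∀ i j, MeasurableSet (sl i j) := by
    intro i j
    have h2 : IsClosed {x : E d | |‖x - z i‖ - ‖x - z' j‖| ≤ t} :=
      isClosed_le (by fun_prop) continuous_const
    exact (Metric.isClosed_closedBall.inter h2).measurableSet
  let far : ι → ι' → ℝ := fun i j => if σ < ‖z i - z' j‖ then M i * M' j else 0
  refine ⟨fun x => ENNReal.ofReal (1 / (2 * ε * K)) *
      (∑ i ∈ I, ∑ j ∈ I', (sl i j).indicator (fun _ => ENNReal.ofReal (far i j)) x) +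
      ENNReal.ofReal (K / 2), ?_, ?_, ?_⟩
  · apply Measurable.add _ measurable_const
    apply Measurable.const_mul
    apply Finset.measurable_fun_sum
    intro i _
    apply Finset.measurable_fun_sum
    intro j _
    exact measurable_const.indicator (hslm i j)
  · rw [lintegral_add_right _ measurable_const, lintegral_const_mul]
    swap
    · apply Finset.measurable_fun_sum
      intro i _
      apply Finset.measurable_fun_sum
      intro j _
      exact measurable_const.indicator (hslm i j)
    have h1 : ∫⁻ x in Metric.closedBall p ρ,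
        ∑ i ∈ I, ∑ j ∈ I', (sl i j).indicator (fun _ => ENNReal.ofReal (far i j)) x ≤
        ENNReal.ofReal (A * A' * (C1 * ρ ^ d * (t / σ))) := by
      rw [lintegral_finsetSum]
      swap
      · intro i _
        apply Finset.measurable_fun_sum
        intro j _
        exact measurable_const.indicator (hslm i j)
      calc ∑ i ∈ I, ∫⁻ x in Metric.closedBall p ρ,
            ∑ j ∈ I', (sl i j).indicator (fun _ => ENNReal.ofReal (far i j)) x
          ≤ ∑ i ∈ I, ∑ j ∈ I', ENNReal.ofReal (M i * M' j * (C1 * ρ ^ d * (t / σ))) := by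
            apply Finset.sum_le_sum
            intro i hi
            rw [lintegral_finsetSum _ (fun j _ => measurable_const.indicator (hslm i j))]
            apply Finset.sum_le_sum
            intro j hj
            calc ∫⁻ x in Metric.closedBall p ρ,
                  (sl i j).indicator (fun _ => ENNReal.ofReal (far i j)) x
                ≤ ∫⁻ x, (sl i j).indicator (fun _ => ENNReal.ofReal (far i j)) x :=
                  setLIntegral_le_lintegral _ _
              _ = ENNReal.ofReal (far i j) * volume (sl i j) := by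
                  rw [lintegral_indicator_const (hslm i j)]
              _ ≤ ENNReal.ofReal (M i * M' j * (C1 * ρ ^ d * (t / σ))) := by
                  by_cases hfar : σ < ‖z i - z' j‖
                  · have hne : z i ≠ z' j := by
                      intro h
                      rw [h, sub_self, norm_zero] at hfar
                      linarith
                    have hv := hslab (z i) (z' j) p ρ t hρ ht.le hne (hz i hi) (hz' j hj)
                    have hMM := mul_nonneg (hM i hi) (hM' j hj)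
                    simp only [far, if_pos hfar]
                    calc ENNReal.ofReal (M i * M' j) * volume (sl i j)
                        ≤ ENNReal.ofReal (M i * M' j) *
                          ENNReal.ofReal (C1 * ρ ^ d * (t / ‖z i - z' j‖)) := by gcongr
                      _ = ENNReal.ofReal (M i * M' j * (C1 * ρ ^ d * (t / ‖z i - z' j‖))) := by
                          rw [← ENNReal.ofReal_mul hMM]
                      _ ≤ _ := by
                          apply ENNReal.ofReal_le_ofReal
                          gcongr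
                  · simp only [far, if_neg hfar, ENNReal.ofReal_zero, zero_mul]
                    exact zero_le
        _ = ENNReal.ofReal (A * A' * (C1 * ρ ^ d * (t / σ))) := by
            rw [hA, hA', Finset.sum_mul_sum, Finset.sum_mul, ENNReal.ofReal_sum_of_nonneg]
            · apply Finset.sum_congr rfl
              intro i hi
              rw [Finset.sum_mul, ENNReal.ofReal_sum_of_nonneg]
              intro j hj
              have hMM := mul_nonneg (hM i hi) (hM' j hj)
              positivity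
            · intro i hi
              rw [Finset.sum_mul]
              apply Finset.sum_nonneg
              intro j hj
              have hMM := mul_nonneg (hM i hi) (hM' j hj)
              positivity
    have h2 : ∫⁻ _ in Metric.closedBall p ρ, ENNReal.ofReal (K / 2) =
        ENNReal.ofReal (K / 2 * (ρ ^ d * U.uvol d)) := by
      rw [setLIntegral_const, U.ptr_vol_ball p hρ.le, ← ENNReal.ofReal_mul (by positivity)]
    rw [h2]
    calc ENNReal.ofReal (1 / (2 * ε * K)) * (∫⁻ x in Metric.closedBall p ρ,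
          ∑ i ∈ I, ∑ j ∈ I', (sl i j).indicator (fun _ => ENNReal.ofReal (far i j)) x) +
          ENNReal.ofReal (K / 2 * (ρ ^ d * U.uvol d))
        ≤ ENNReal.ofReal (1 / (2 * ε * K)) * ENNReal.ofReal (A * A' * (C1 * ρ ^ d * (t / σ))) +
          ENNReal.ofReal (K / 2 * (ρ ^ d * U.uvol d)) := by gcongr
      _ = ENNReal.ofReal (1 / (2 * ε * K) * (A * A' * (C1 * ρ ^ d * (t / σ))) +
          K / 2 * (ρ ^ d * U.uvol d)) := by
          rw [← ENNReal.ofReal_mul (by positivity), ← ENNReal.ofReal_add (by positivity)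
            (by positivity)]
      _ = ENNReal.ofReal ((C1 + U.uvol d) / 2 * ρ ^ d * K) := by
          congr 1
          have h3 : A * A' * (t / σ) = ε * K ^ 2 := by
            rw [hK2]
            field_simp
          calc 1 / (2 * ε * K) * (A * A' * (C1 * ρ ^ d * (t / σ))) + K / 2 * (ρ ^ d * U.uvol d)
              = 1 / (2 * ε * K) * (C1 * ρ ^ d * (A * A' * (t / σ))) +
                K / 2 * (ρ ^ d * U.uvol d) := by ring
            _ = _ := by
              rw [h3]
              field_simp
  · intro x hx S hS S' hS' b hxS hb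
    by_cases hb0 : b ≤ 0
    · rw [ENNReal.ofReal_of_nonpos hb0]
      exact zero_le
    push Not at hb0
    have h1 : b ≤ ε * b ^ 2 / (2 * ε * K) + K / 2 := by
      have h2 : ε * b ^ 2 / (2 * ε * K) + K / 2 = (b ^ 2 + K ^ 2) / (2 * K) := by
        field_simp
      rw [h2, le_div_iff₀ (by positivity)]
      nlinarith [sq_nonneg (b - K)]
    have h3 : ENNReal.ofReal (ε * b ^ 2) ≤
        ∑ i ∈ I, ∑ j ∈ I', (sl i j).indicator (fun _ => ENNReal.ofReal (far i j)) x := by
      calc ENNReal.ofReal (ε * b ^ 2) ≤ ENNReal.ofReal (∑ i ∈ S, ∑ j ∈ S', far i j) :=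
            ENNReal.ofReal_le_ofReal hb
        _ = ∑ i ∈ S, ∑ j ∈ S', ENNReal.ofReal (far i j) := by
            have hnn : ∀ i ∈ S, ∀ j ∈ S', 0 ≤ far i j := by
              intro i hi j hj
              have := mul_nonneg (hM i (hS hi)) (hM' j (hS' hj))
              simp only [far]
              split_ifs
              · exact this
              · exact le_rfl
            rw [ENNReal.ofReal_sum_of_nonneg]
            · apply Finset.sum_congr rfl
              intro i hi
              rw [ENNReal.ofReal_sum_of_nonneg (hnn i hi)]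
            · intro i hi
              exact Finset.sum_nonneg (hnn i hi)
        _ = ∑ i ∈ S, ∑ j ∈ S', (sl i j).indicator (fun _ => ENNReal.ofReal (far i j)) x := by
            apply Finset.sum_congr rfl
            intro i hi
            apply Finset.sum_congr rfl
            intro j hj
            rw [indicator_of_mem]
            exact ⟨hx, hxS i hi j hj⟩
        _ ≤ ∑ i ∈ S, ∑ j ∈ I', (sl i j).indicator (fun _ => ENNReal.ofReal (far i j)) x := by
            apply Finset.sum_le_sum
            intro i _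
            exact Finset.sum_le_sum_of_subset hS'
        _ ≤ _ := Finset.sum_le_sum_of_subset hS
    calc ENNReal.ofReal b ≤ ENNReal.ofReal (ε * b ^ 2 / (2 * ε * K) + K / 2) :=
          ENNReal.ofReal_le_ofReal h1
      _ = ENNReal.ofReal (1 / (2 * ε * K)) * ENNReal.ofReal (ε * b ^ 2) +
          ENNReal.ofReal (K / 2) := by
          rw [← ENNReal.ofReal_mul (by positivity), ← ENNReal.ofReal_add (by positivity)
            (by positivity)]
          congr 1
          ring
      _ ≤ _ := by
          apply add_le_add _ le_rfl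
          exact mul_le_mul_right h3 _

/-- Majorant (B): for a set `S` of cells seen from `x` at distance `r ± t`, no cell of which
carries most of the mass nearby. -/
theorem majB (d : ℕ) : ∃ C : ℝ, 0 < C ∧ ∀ {ι : Type} (I : Finset ι) (z : ι → E d) (M : ι → ℝ)
    (p : E d) (ρ t σ ε : ℝ), 0 < ρ → 0 < t → 0 < σ → 0 < ε → (∀ i ∈ I, 0 ≤ M i) →
    (∀ i ∈ I, ‖z i - p‖ ≤ ρ) →
    ∃ maj : E d → ℝ≥0∞, Measurable maj ∧
      ∫⁻ x in Metric.closedBall p ρ, maj x ≤ ENNReal.ofReal
        (C * ρ ^ d * √(t / (ε * σ)) * ∑ i ∈ I, M i) ∧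
      ∀ x ∈ Metric.closedBall p ρ, ∀ r : ℝ, ∀ S ⊆ I, (∀ i ∈ S, |‖x - z i‖ - r| ≤ t) →
        (∀ i₀ ∈ S, ε * ∑ i ∈ S, M i ≤ ∑ i ∈ S, (if σ < ‖z i - z i₀‖ then M i else 0)) →
        ENNReal.ofReal (∑ i ∈ S, M i) ≤ maj x := by
  obtain ⟨C, hC, h⟩ := pairMaj d
  refine ⟨C * √2, by positivity, ?_⟩
  intro ι I z M p ρ t σ ε hρ ht hσ hε hM hz
  obtain ⟨maj, hm, hint, hmaj⟩ := h I I z z M M p ρ (2 * t) σ ε hρ (by positivity) hσ hε hM hM
    hz hz
  have hA : 0 ≤ ∑ i ∈ I, M i := Finset.sum_nonneg hM
  refine ⟨maj, hm, hint.trans_eq ?_, ?_⟩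
  · congr 1
    have : (∑ i ∈ I, M i) * (∑ i ∈ I, M i) * (2 * t / (ε * σ)) =
        (∑ i ∈ I, M i) ^ 2 * (2 * (t / (ε * σ))) := by ring
    rw [this, Real.sqrt_mul (by positivity), Real.sqrt_sq hA, Real.sqrt_mul (by norm_num)]
    ring
  · intro x hx r S hS hr hfar
    apply hmaj x hx S hS S hS
    · intro i hi j hj
      have h1 := abs_le.1 (hr i hi)
      have h2 := abs_le.1 (hr j hj)
      rw [abs_le]
      constructor <;> linarith [h1.1, h1.2, h2.1, h2.2]
    · calc ε * (∑ i ∈ S, M i) ^ 2 = ∑ i₀ ∈ S, M i₀ * (ε * ∑ i ∈ S, M i) := by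
            rw [← Finset.sum_mul]
            ring
        _ ≤ ∑ i₀ ∈ S, M i₀ * ∑ i ∈ S, (if σ < ‖z i - z i₀‖ then M i else 0) := by
            apply Finset.sum_le_sum
            intro i₀ hi₀
            exact mul_le_mul_of_nonneg_left (hfar i₀ hi₀) (hM _ (hS hi₀))
        _ = ∑ i ∈ S, ∑ j ∈ S, (if σ < ‖z i - z j‖ then M i * M j else 0) := by
            apply Finset.sum_congr rfl
            intro i _
            rw [Finset.mul_sum]
            apply Finset.sum_congr rfl
            intro j _
            rw [norm_sub_rev (z j) (z i)]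
            split_ifs <;> ring

/-- Majorant (b'): two families seen from `x` at distances `r ± t`, with at least half of the mass
of the first near `y`, at least half of the mass of the second near `y'`, and `y`, `y'` far
apart. -/
theorem majB' (d : ℕ) : ∃ C : ℝ, 0 < C ∧ ∀ {ι ι' : Type} (I : Finset ι) (I' : Finset ι')
    (z : ι → E d) (z' : ι' → E d) (M : ι → ℝ) (M' : ι' → ℝ)
    (p : E d) (ρ t σ : ℝ), 0 < ρ → 0 < t → 0 < σ → (∀ i ∈ I, 0 ≤ M i) → (∀ i ∈ I', 0 ≤ M' i) →
    (∀ i ∈ I, ‖z i - p‖ ≤ ρ) → (∀ i ∈ I', ‖z' i - p‖ ≤ ρ) →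
    ∃ maj : E d → ℝ≥0∞, Measurable maj ∧
      ∫⁻ x in Metric.closedBall p ρ, maj x ≤ ENNReal.ofReal
        (C * ρ ^ d * √(t / σ) * (∑ i ∈ I, M i + ∑ i ∈ I', M' i)) ∧
      ∀ x ∈ Metric.closedBall p ρ, ∀ r : ℝ, ∀ S ⊆ I, ∀ S' ⊆ I',
        (∀ i ∈ S, |‖x - z i‖ - r| ≤ t) → (∀ i ∈ S', |‖x - z' i‖ - r| ≤ t) →
        ∀ y y' : E d, σ < ‖y - y'‖ →
        (∑ i ∈ S, (if σ / 4 < ‖z i - y‖ then M i else 0)) ≤ 1 / 2 * ∑ i ∈ S, M i →
        (∑ i ∈ S', (if σ / 4 < ‖z' i - y'‖ then M' i else 0)) ≤ 1 / 2 * ∑ i ∈ S', M' i →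
        ENNReal.ofReal (min (∑ i ∈ S, M i) (∑ i ∈ S', M' i)) ≤ maj x := by
  obtain ⟨C, hC, h⟩ := pairMaj d
  refine ⟨C * √16, by positivity, ?_⟩
  intro ι ι' I I' z z' M M' p ρ t σ hρ ht hσ hM hM' hz hz'
  obtain ⟨maj, hm, hint, hmaj⟩ := h I I' z z' M M' p ρ (2 * t) (σ / 2) (1 / 4) hρ (by positivity)
    (by positivity) (by norm_num) hM hM' hz hz'
  have hA : 0 ≤ ∑ i ∈ I, M i := Finset.sum_nonneg hM
  have hA' : 0 ≤ ∑ i ∈ I', M' i := Finset.sum_nonneg hM'
  refine ⟨maj, hm, hint.trans ?_, ?_⟩
  · apply ENNReal.ofReal_le_ofReal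
    have h1 : √((∑ i ∈ I, M i) * (∑ i ∈ I', M' i) * (2 * t / (1 / 4 * (σ / 2)))) ≤
        √16 * √(t / σ) * (∑ i ∈ I, M i + ∑ i ∈ I', M' i) := by
      have e1 : (∑ i ∈ I, M i) * (∑ i ∈ I', M' i) * (2 * t / (1 / 4 * (σ / 2))) =
          16 * ((t / σ) * ((∑ i ∈ I, M i) * (∑ i ∈ I', M' i))) := by
        field_simp
        ring
      rw [e1, Real.sqrt_mul (by norm_num), Real.sqrt_mul (by positivity), mul_assoc]
      gcongr
      apply Real.sqrt_le_iff.2
      constructor
      · positivity
      · nlinarith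
    calc C * ρ ^ d * √((∑ i ∈ I, M i) * (∑ i ∈ I', M' i) * (2 * t / (1 / 4 * (σ / 2))))
        ≤ C * ρ ^ d * (√16 * √(t / σ) * (∑ i ∈ I, M i + ∑ i ∈ I', M' i)) := by gcongr
      _ = _ := by ring
  · intro x hx r S hS S' hS' hr hr' y y' hyy hy hy'
    apply hmaj x hx S hS S' hS'
    · intro i hi j hj
      have h1 := abs_le.1 (hr i hi)
      have h2 := abs_le.1 (hr' j hj)
      rw [abs_le]
      constructor <;> linarith [h1.1, h1.2, h2.1, h2.2]
    · have hMS : ∀ i ∈ S, 0 ≤ M i := fun i hi => hM i (hS hi)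
      have hMS' : ∀ i ∈ S', 0 ≤ M' i := fun i hi => hM' i (hS' hi)
      set b := ∑ i ∈ S, M i with hb
      set b' := ∑ i ∈ S', M' i with hb'
      have hb0 : 0 ≤ b := Finset.sum_nonneg hMS
      have hb0' : 0 ≤ b' := Finset.sum_nonneg hMS'
      have n1 : 1 / 2 * b ≤ ∑ i ∈ S, (if ‖z i - y‖ ≤ σ / 4 then M i else 0) := by
        have : b = (∑ i ∈ S, (if ‖z i - y‖ ≤ σ / 4 then M i else 0)) +
            ∑ i ∈ S, (if σ / 4 < ‖z i - y‖ then M i else 0) := by
          rw [hb, ← Finset.sum_add_distrib]
          apply Finset.sum_congr rfl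
          intro i _
          by_cases h : ‖z i - y‖ ≤ σ / 4
          · rw [if_pos h, if_neg (not_lt.2 h), add_zero]
          · rw [if_neg h, if_pos (not_le.1 h), zero_add]
        linarith
      have n2 : 1 / 2 * b' ≤ ∑ i ∈ S', (if ‖z' i - y'‖ ≤ σ / 4 then M' i else 0) := by
        have : b' = (∑ i ∈ S', (if ‖z' i - y'‖ ≤ σ / 4 then M' i else 0)) +
            ∑ i ∈ S', (if σ / 4 < ‖z' i - y'‖ then M' i else 0) := by
          rw [hb', ← Finset.sum_add_distrib]
          apply Finset.sum_congr rfl
          intro i _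
          by_cases h : ‖z' i - y'‖ ≤ σ / 4
          · rw [if_pos h, if_neg (not_lt.2 h), add_zero]
          · rw [if_neg h, if_pos (not_le.1 h), zero_add]
        linarith
      calc 1 / 4 * (min b b') ^ 2 ≤ (1 / 2 * b) * (1 / 2 * b') := by
            have h1 : min b b' ≤ b := min_le_left _ _
            have h2 : min b b' ≤ b' := min_le_right _ _
            have h3 : 0 ≤ min b b' := le_min hb0 hb0'
            nlinarith
        _ ≤ (∑ i ∈ S, (if ‖z i - y‖ ≤ σ / 4 then M i else 0)) *
            (∑ i ∈ S', (if ‖z' i - y'‖ ≤ σ / 4 then M' i else 0)) := by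
            apply mul_le_mul n1 n2 (by positivity)
            apply Finset.sum_nonneg
            intro i hi
            split_ifs
            · exact hMS i hi
            · exact le_rfl
        _ ≤ _ := by
            rw [Finset.sum_mul_sum]
            apply Finset.sum_le_sum
            intro i hi
            apply Finset.sum_le_sum
            intro j hj
            have hMM := mul_nonneg (hMS i hi) (hMS' j hj)
            by_cases h1 : ‖z i - y‖ ≤ σ / 4
            · by_cases h2 : ‖z' j - y'‖ ≤ σ / 4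
              · have h3 : σ / 2 < ‖z i - z' j‖ := by
                  have : ‖y - y'‖ ≤ ‖z i - y‖ + ‖z i - z' j‖ + ‖z' j - y'‖ := by
                    calc ‖y - y'‖ = ‖-(z i - y) + (z i - z' j) + (z' j - y')‖ := by
                          congr 1; abel
                      _ ≤ ‖-(z i - y) + (z i - z' j)‖ + ‖z' j - y'‖ := norm_add_le _ _
                      _ ≤ ‖-(z i - y)‖ + ‖z i - z' j‖ + ‖z' j - y'‖ := by
                          gcongr; exact norm_add_le _ _
                      _ = _ := by rw [norm_neg]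
                  linarith
                rw [if_pos h1, if_pos h2, if_pos h3]
              · rw [if_neg h2, mul_zero]
                split_ifs
                · exact hMM
                · exact le_rfl
            · rw [if_neg h1, zero_mul]
              split_ifs
              · exact hMM
              · exact le_rfl

end Vale.Agent.P137.C.Meas
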