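import Vale.Agent.P137.C.Spec
import Mathlib.MeasureTheory.Function.Floor

/-!
# P137, centered operator, block V: basic facts about masses and cells
-/

open MeasureTheory Set Filter Topology
open scoped ENNReal NNReal

namespace Vale.Agent.P137.U.Cen.Mj

open Vale.Agent.P137 Vale.Agent.P137.U Vale.Agent.P137.U.Cen

variable {d : ℕ}

/-! ### multi-scale masses -/

theorem mm_nonneg {ω : ℕ → ℝ} (hω : ∀ i, 0 ≤ ω i) {w : Lat d → E d} {m : Lat d → ℝ}
    (hm : ∀ a, 0 ≤ m a) (k : ℕ) (a : Lat d) : 0 ≤ mm ω w m k a := by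
  induction k generalizing a with
  | zero => exact mul_nonneg (hω 0) (add_nonneg (norm_nonneg _) (hm a))
  | succ k ih =>
    rw [mm]
    exact add_nonneg (mul_nonneg (hω _) (norm_nonneg _)) (Finset.sum_nonneg fun b _ => ih _)

/-- Sum of the multi-scale masses of the cells of level `k` in the cell `(k + j, m')`. -/
theorem sum_mm_le {ω : ℕ → ℝ} (hω : ∀ i, 0 ≤ ω i) {w : Lat d → E d} {m : Lat d → ℝ}
    (k j : ℕ) (n : Lat d) :
    ∑ c ∈ blkJ j n, mm ω w m k (co k c) ≤ mm ω w m (k + j) (co k n) := by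
  induction j generalizing n with
  | zero => simp [blkJ_zero]
  | succ j ih =>
    rw [sum_blkJ_succ, ← add_assoc, mm]
    have h1 : ∑ b ∈ offs d, ∑ c ∈ blkJ j (n + (2 : ℤ) ^ j • b), mm ω w m k (co k c) ≤
        ∑ b ∈ offs d, mm ω w m (k + j) (co k n + (2 : ℤ) ^ (k + j) • b) := by
      refine Finset.sum_le_sum fun b _ => ?_
      rw [co_add]
      exact ih _
    have h2 : 0 ≤ ω (k + j + 1) * ‖vv w (k + j + 1) (co k n)‖ :=
      mul_nonneg (hω _) (norm_nonneg _)
    linarith only [h1, h2]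

theorem wt_nonneg (t i : ℕ) : 0 ≤ wt t i := by
  unfold wt; positivity

/-! ### basic facts about a block -/

theorem s_pos (B : Blk d) : 0 < B.s := by unfold Blk.s; positivity

theorem s_ge_one (B : Blk d) : 1 ≤ B.s := by
  unfold Blk.s; exact one_le_pow₀ (by norm_num)

theorem H_pos (B : Blk d) (m : ℕ) : 0 < B.H m := by unfold Blk.H; positivity

theorem rho_pos (B : Blk d) (m : ℕ) : 0 < B.rho m := by unfold Blk.rho; positivity

theorem rho_le_one (B : Blk d) (m : ℕ) : B.rho m ≤ 1 := by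
  unfold Blk.rho; exact pow_le_one₀ (by norm_num) (by norm_num)

theorem m2_nonneg (B : Blk d) (a : Lat d) : 0 ≤ B.m2 a := by
  unfold Blk.m2
  have := m0f_nonneg B.g a
  positivity

theorem MM_nonneg (B : Blk d) (m : ℕ) (c : Lat d) : 0 ≤ B.MM m c :=
  mm_nonneg (wt_nonneg _) (m2_nonneg B) _ _

theorem tot_nonneg (B : Blk d) (m : ℕ) : 0 ≤ B.tot m :=
  mm_nonneg (wt_nonneg _) (m2_nonneg B) _ _

theorem E0_nonneg (B : Blk d) : 0 ≤ B.E0 :=
  mm_nonneg (wt_nonneg _) (m2_nonneg B) _ _

theorem b_nonneg (B : Blk d) (m : ℕ) (x : E d) (r : ℝ) : 0 ≤ B.b m x r :=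
  Finset.sum_nonneg fun c _ => MM_nonneg B m c

theorem lv_le (B : Blk d) (m : ℕ) : B.lv m ≤ B.j := Nat.sub_le _ _

theorem valid_of_le {B : Blk d} {m m' : ℕ} (h : m' ≤ m) (hv : B.valid m) : B.valid m' := by
  unfold Blk.valid at *
  have : 2 ^ m' ≤ 2 ^ m := Nat.pow_le_pow_right (by norm_num) h
  have : B.s0 * 2 ^ m' ≤ B.s0 * 2 ^ m := Nat.mul_le_mul_left _ this
  omega

/-- `Σ_P M_m(P) ≤ M_m(J)`. -/
theorem sum_MM_le (B : Blk d) (m : ℕ) : ∑ c ∈ B.cells m, B.MM m c ≤ B.tot m := by
  have hl := lv_le B m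
  have h1 := sum_mm_le (wt_nonneg (B.lv (m + 1))) (w := B.w) (m := B.m2) (B.lv m)
    (B.j + 6 - B.lv m) (fun i => 2 ^ (B.j - B.lv m) * (B.n i - 32))
  have h2 : B.lv m + (B.j + 6 - B.lv m) = B.j + 6 := by omega
  have h3 : co (B.lv m) (fun i => 2 ^ (B.j - B.lv m) * (B.n i - 32)) = bc B.j B.n := by
    rw [bc_eq_co]
    funext i
    simp only [co]
    rw [← mul_assoc, ← pow_add]
    congr 2
    omega
  rw [h2, h3] at h1
  exact h1

theorem b_le_tot (B : Blk d) (m : ℕ) (x : E d) (r : ℝ) : B.b m x r ≤ B.tot m := by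
  refine le_trans ?_ (sum_MM_le B m)
  unfold Blk.b Blk.Sh
  exact Finset.sum_le_sum_of_subset_of_nonneg (Finset.filter_subset _ _)
    fun c _ _ => MM_nonneg B m c

/-- The number of cells of level `lv m` in the block. -/
theorem card_cells (B : Blk d) (m : ℕ) : ((B.cells m).card : ℝ) = (64 * B.s / B.H m) ^ d := by
  have hl := lv_le B m
  unfold Blk.cells blkJ
  rw [Fintype.card_piFinset]
  simp only [Int.card_Ico, add_sub_cancel_left, Finset.prod_const, Finset.card_univ,
    Fintype.card_fin]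
  have h1 : ((2 : ℤ) ^ (B.j + 6 - B.lv m)).toNat = 2 ^ (B.j + 6 - B.lv m) := by
    rw [← Int.natCast_inj, Int.toNat_of_nonneg (by positivity)]
    push_cast
    rfl
  rw [h1]
  push_cast
  congr 1
  unfold Blk.s Blk.H
  rw [eq_div_iff (by positivity), ← pow_add]
  have h2 : B.j + 6 - B.lv m + B.lv m = B.j + 6 := by omega
  rw [h2, pow_add]
  norm_num
  ring

theorem H_eq {B : Blk d} {m : ℕ} (hv : B.valid m) : B.H m = B.s * B.rho m ^ 16 := by
  unfold Blk.H Blk.s Blk.rho Blk.lv
  unfold Blk.valid at hv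
  rw [← pow_mul, one_div, inv_pow, ← div_eq_mul_inv, eq_div_iff (by positivity), ← pow_add]
  congr 1
  omega

theorem rho_pred {B : Blk d} {m : ℕ} (hm : 1 ≤ m) : B.rho (m - 1) ^ 2 = B.rho m := by
  unfold Blk.rho
  rw [← pow_mul]
  congr 1
  obtain ⟨k, rfl⟩ : ∃ k, m = k + 1 := ⟨m - 1, by omega⟩
  rw [Nat.add_sub_cancel, pow_succ]
  ring

/-- `H_{m-1} = s ρ_m^8`. -/
theorem H_pred {B : Blk d} {m : ℕ} (hm : 1 ≤ m) (hv : B.valid m) :
    B.H (m - 1) = B.s * B.rho m ^ 8 := by
  rw [H_eq (valid_of_le (by omega) hv), ← rho_pred hm, ← pow_mul]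

theorem rho_le_pow (B : Blk d) {m : ℕ} (hm : 1 ≤ m) : B.rho m ≤ (1 / 2) ^ (2 * B.s0) := by
  unfold Blk.rho
  apply pow_le_pow_of_le_one (by norm_num) (by norm_num)
  obtain ⟨k, rfl⟩ : ∃ k, m = k + 1 := ⟨m - 1, by omega⟩
  have : 1 ≤ 2 ^ k := Nat.one_le_two_pow
  rw [pow_succ]
  nlinarith

/-- `ρ_m` is as small as we want when `s0` is large. -/
theorem exists_S0 {ε : ℝ} (hε : 0 < ε) : ∃ S0 : ℕ, ∀ (B : Blk d), S0 ≤ B.s0 → ∀ m, 1 ≤ m →
    B.rho m ≤ ε := by
  obtain ⟨N, hN⟩ := exists_pow_lt_of_lt_one hε (by norm_num : (1 / 2 : ℝ) < 1)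
  refine ⟨N, fun B hB m hm => (rho_le_pow B hm).trans (le_trans ?_ hN.le)⟩
  apply pow_le_pow_of_le_one (by norm_num) (by norm_num)
  omega

/-! ### The cone valued field -/

theorem measurable_gam (c0 : Lat d → E d) : Measurable (gam c0) := by
  have h1 : Measurable (fun z : E d => (fun i => ⌊z i⌋ : Lat d)) := by
    refine measurable_pi_lambda _ fun i => ?_
    have hm : Measurable fun x : E d => x i := by fun_prop
    exact Int.measurable_floor.comp hm
  exact (Measurable.of_discrete (f := c0)).comp h1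

theorem gam_eq_of_mem {c0 : Lat d → E d} {a : Lat d} {z : E d} (hz : z ∈ cube 0 a) :
    gam c0 z = c0 a := by
  unfold gam
  congr 1
  funext i
  have h := hz i
  rw [pow_zero] at h
  rw [Int.floor_eq_iff]
  exact h

theorem mem_cube_floor (z : E d) : z ∈ cube 0 (fun i => ⌊z i⌋ : Lat d) := by
  intro i
  rw [pow_zero]
  exact ⟨Int.floor_le _, Int.lt_floor_add_one _⟩

/-- A field which vanishes outside of a finite set of cubes is integrable. -/
theorem integrable_gam_of {c0 : Lat d → E d} {S : Finset (Lat d)} (h : ∀ a, a ∉ S → c0 a = 0) :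
    Integrable (gam c0) := by
  have h1 : gam c0 = fun z => ∑ a ∈ S, (cube 0 a).indicator (fun _ => c0 a) z := by
    funext z
    by_cases hz : (fun i => ⌊z i⌋ : Lat d) ∈ S
    · rw [Finset.sum_eq_single_of_mem _ hz]
      · rw [indicator_of_mem (mem_cube_floor z)]
        rfl
      · intro a _ ha
        rw [indicator_of_notMem]
        intro hza
        apply ha
        funext i
        have h2 := hza i
        rw [pow_zero] at h2
        exact ((Int.floor_eq_iff).2 h2).symm
    · rw [Finset.sum_eq_zero]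
      · exact h _ hz
      · intro a ha
        rw [indicator_of_notMem]
        intro hza
        apply hz
        have : (fun i => ⌊z i⌋ : Lat d) = a := by
          funext i
          have h2 := hza i
          rw [pow_zero] at h2
          exact (Int.floor_eq_iff).2 h2
        rw [this]
        exact ha
  rw [h1]
  apply integrable_finsetSum
  intro a _
  rw [integrable_indicator_iff (measurableSet_cube 0 a)]
  refine integrableOn_const (hs := ?_) (hC := enorm_ne_top)
  have h2 : cube 0 a ⊆ Metric.closedBall (pt a) (√d * 2 ^ 0) := by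
    intro x hx
    rw [Metric.mem_closedBall, dist_eq_norm]
    exact norm_sub_le_of_mem_cube hx (pt_mem_cube 0 a)
  exact ((measure_mono h2).trans_lt measure_closedBall_lt_top).ne

theorem integrable_gam {B : Blk d} {e : E d} (h : B.OK e) : Integrable (gam B.c0) :=
  integrable_gam_of h.c_out

theorem mass_nonneg (B : Blk d) (A : Set (E d)) : 0 ≤ B.mass A :=
  integral_nonneg fun _ => norm_nonneg _

theorem mass_mono {B : Blk d} {e : E d} (h : B.OK e) {A A' : Set (E d)} (hA : A ⊆ A') :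
    B.mass A ≤ B.mass A' :=
  setIntegral_mono_set (integrable_gam h).norm.integrableOn
    (Eventually.of_forall fun _ => norm_nonneg _) (Eventually.of_forall hA)

theorem mass_eq {B : Blk d} {A : Set (E d)} (hA : MeasurableSet A) :
    B.mass A = ∫ z, A.indicator (fun z => ‖gam B.c0 z‖) z := by
  rw [Blk.mass, integral_indicator hA]

/-- Mass of a set contained in the union of two sets. -/
theorem mass_add_le {B : Blk d} {e : E d} (h : B.OK e) {A A' U : Set (E d)}
    (hA' : MeasurableSet A') (hd : Disjoint A A') (hU : A ∪ A' ⊆ U) :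
    B.mass A + B.mass A' ≤ B.mass U := by
  refine le_trans (le_of_eq ?_) (mass_mono h hU)
  unfold Blk.mass
  rw [setIntegral_union hd hA' (integrable_gam h).norm.integrableOn
    (integrable_gam h).norm.integrableOn]

end Vale.Agent.P137.U.Cen.Mj
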