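import Vale.Agent.P137.MathlibUsed

open MeasureTheory Set Metric
open scoped ENNReal NNReal Pointwise

namespace Vale.Agent.P137.C.Meas

variable {d : ℕ}

/-- Euclidean space. -/
abbrev Ed (d : ℕ) := EuclideanSpace ℝ (Fin d)

theorem pow_sub_pow_le_mul {θ : ℝ} (h0 : 0 ≤ θ) (h1 : θ ≤ 1) (n : ℕ) :
    (1 + θ) ^ n - (1 - θ) ^ n ≤ n * 2 ^ n * θ := by
  induction n with
  | zero => simp
  | succ n ih =>
    have hb : (1 - θ) ^ n ≤ 1 := pow_le_one₀ (by linarith) (by linarith)
    have hb0 : 0 ≤ (1 - θ) ^ n := pow_nonneg (by linarith) n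
    have e1 : (1 + θ) ^ (n + 1) - (1 - θ) ^ (n + 1)
        = (1 + θ) * ((1 + θ) ^ n - (1 - θ) ^ n) + 2 * θ * (1 - θ) ^ n := by ring
    have hmono : 0 ≤ (1 + θ) ^ n - (1 - θ) ^ n := by
      have : (1 - θ) ^ n ≤ (1 + θ) ^ n := pow_le_pow_left₀ (by linarith) (by linarith) n
      linarith
    have e2 : (1 + θ) * ((1 + θ) ^ n - (1 - θ) ^ n) ≤ 2 * (n * 2 ^ n * θ) := by
      calc (1 + θ) * ((1 + θ) ^ n - (1 - θ) ^ n) ≤ 2 * ((1 + θ) ^ n - (1 - θ) ^ n) := by
            gcongr; linarith
        _ ≤ 2 * (n * 2 ^ n * θ) := by gcongr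
    have e3 : 2 * θ * (1 - θ) ^ n ≤ 2 * θ * 1 := by gcongr
    have e4 : (1 : ℝ) ≤ 2 ^ n := one_le_pow₀ (by norm_num)
    rw [e1]
    push_cast
    have e5 : θ * 1 ≤ θ * 2 ^ n := by gcongr
    rw [pow_succ]
    nlinarith

/-- Volume of the unit ball as a real number. -/
noncomputable def vB (d : ℕ) : ℝ := (volume : Measure (EuclideanSpace ℝ (Fin d))).real (ball 0 1)

theorem vB_nonneg : 0 ≤ vB d := measureReal_nonneg

theorem vB_pos : 0 < vB d := by
  unfold vB
  rw [measureReal_def]
  exact ENNReal.toReal_pos (measure_ball_pos _ _ one_pos).ne' measure_ball_lt_top.ne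

theorem volume_real_closedBall (x : Ed d) {r : ℝ} (hr : 0 ≤ r) :
    (volume : Measure (Ed d)).real (closedBall x r) = r ^ d * vB d := by
  rw [Measure.addHaar_real_closedBall _ _ hr, vB]
  simp

theorem volume_closedBall_eq (x : Ed d) {r : ℝ} (hr : 0 ≤ r) :
    volume (closedBall x r) = ENNReal.ofReal (r ^ d * vB d) := by
  rw [← volume_real_closedBall x hr, ofReal_measureReal measure_closedBall_lt_top.ne]

theorem setIntegral_smul (F : Ed d → ℝ) {R c : ℝ} (hR : 0 ≤ R) (hc : 0 < c) :
    ∫ u in closedBall (0 : Ed d) R, F (c • u)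
      = (c ^ d)⁻¹ * ∫ u in closedBall (0 : Ed d) (c * R), F u := by
  have h := Measure.setIntegral_comp_smul_of_pos (volume : Measure (Ed d)) F (closedBall (0 : Ed d) R) hc
  rw [h, smul_closedBall _ _ hR, smul_zero, Real.norm_of_nonneg hc.le]
  simp

/-- The integral form of the dilation lemma, centred at the origin. -/
theorem dil_integral {R θ L : ℝ} (hR : 0 ≤ R) (hθ : 0 ≤ θ) (hθ1 : θ ≤ 1 / 2) {F : Ed d → ℝ}
    (hF : Measurable F) (h0 : ∀ x, 0 ≤ F x) (hL : ∀ x, F x ≤ L) :
    ∫ u in closedBall (0 : Ed d) R, (F ((1 + θ) • u) - F ((1 - θ) • u))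
      ≤ L * (vB d * (d * 2 ^ d * θ) * R ^ d) := by
  have hL0 : 0 ≤ L := (h0 0).trans (hL 0)
  have hint : ∀ (c r : ℝ), IntegrableOn (fun u : Ed d => F (c • u)) (closedBall 0 r) := by
    intro c r
    refine Measure.integrableOn_of_bounded (M := L) measure_closedBall_lt_top.ne
      (hF.comp (measurable_const_smul c)).aestronglyMeasurable ?_
    filter_upwards with u
    rw [Real.norm_of_nonneg (h0 _)]
    exact hL _
  have hint1 : ∀ (r : ℝ), IntegrableOn F (closedBall 0 r) := by
    intro r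
    simpa using hint 1 r
  rw [integral_sub (hint _ _) (hint _ _), setIntegral_smul F hR (by linarith),
    setIntegral_smul F hR (by linarith)]
  have hsub : closedBall (0 : Ed d) ((1 - θ) * R) ⊆ closedBall 0 ((1 + θ) * R) := by
    apply closedBall_subset_closedBall
    gcongr
    linarith
  have hA : 0 ≤ ∫ u in closedBall (0 : Ed d) ((1 - θ) * R), F u := integral_nonneg h0
  have hAB : 0 ≤ ∫ u in closedBall (0 : Ed d) ((1 + θ) * R), F u := integral_nonneg h0
  have hp1 : 1 ≤ (1 + θ) ^ d := one_le_pow₀ (by linarith)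
  have hp2 : (1 - θ) ^ d ≤ 1 := pow_le_one₀ (by linarith) (by linarith)
  have hp3 : 0 < (1 - θ) ^ d := pow_pos (by linarith) d
  have e1 : ((1 + θ) ^ d)⁻¹ * ∫ u in closedBall (0 : Ed d) ((1 + θ) * R), F u
      ≤ ∫ u in closedBall (0 : Ed d) ((1 + θ) * R), F u := by
    have : ((1 + θ) ^ d)⁻¹ ≤ 1 := inv_le_one_of_one_le₀ hp1
    nlinarith
  have e2 : ∫ u in closedBall (0 : Ed d) ((1 - θ) * R), F u
      ≤ ((1 - θ) ^ d)⁻¹ * ∫ u in closedBall (0 : Ed d) ((1 - θ) * R), F u := by
    have : 1 ≤ ((1 - θ) ^ d)⁻¹ := (one_le_inv₀ hp3).2 hp2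
    nlinarith
  have e3 : (∫ u in closedBall (0 : Ed d) ((1 + θ) * R), F u)
      - ∫ u in closedBall (0 : Ed d) ((1 - θ) * R), F u
      = ∫ u in closedBall (0 : Ed d) ((1 + θ) * R) \ closedBall (0 : Ed d) ((1 - θ) * R), F u := by
    rw [setIntegral_sdiff measurableSet_closedBall (hint1 _) hsub]
  have e4 : ∫ u in closedBall (0 : Ed d) ((1 + θ) * R) \ closedBall (0 : Ed d) ((1 - θ) * R), F u
      ≤ L * (volume : Measure (Ed d)).real
        (closedBall (0 : Ed d) ((1 + θ) * R) \ closedBall (0 : Ed d) ((1 - θ) * R)) := by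
    calc ∫ u in closedBall (0 : Ed d) ((1 + θ) * R) \ closedBall (0 : Ed d) ((1 - θ) * R), F u
        ≤ ∫ _u in closedBall (0 : Ed d) ((1 + θ) * R) \ closedBall (0 : Ed d) ((1 - θ) * R), L := by
          apply integral_mono ((hint1 _).mono_set sdiff_subset) _ hL
          exact integrableOn_const (measure_lt_top_of_subset sdiff_subset
            measure_closedBall_lt_top.ne).ne
      _ = _ := by
          rw [setIntegral_const, smul_eq_mul, mul_comm]
  have e5 : (volume : Measure (Ed d)).real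
        (closedBall (0 : Ed d) ((1 + θ) * R) \ closedBall (0 : Ed d) ((1 - θ) * R))
      = (((1 + θ) ^ d - (1 - θ) ^ d) * R ^ d) * vB d := by
    rw [measureReal_sdiff hsub measurableSet_closedBall measure_closedBall_lt_top.ne,
      volume_real_closedBall _ (by positivity),
      volume_real_closedBall _ (mul_nonneg (by linarith) hR), mul_pow, mul_pow]
    ring
  have e6 := pow_sub_pow_le_mul hθ (by linarith) d
  calc ((1 + θ) ^ d)⁻¹ * (∫ u in closedBall (0 : Ed d) ((1 + θ) * R), F u)
        - ((1 - θ) ^ d)⁻¹ * ∫ u in closedBall (0 : Ed d) ((1 - θ) * R), F u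
      ≤ L * ((((1 + θ) ^ d - (1 - θ) ^ d) * R ^ d) * vB d) := by
        rw [← e5]
        linarith
    _ ≤ L * (((d * 2 ^ d * θ) * R ^ d) * vB d) := by
        have := vB_nonneg (d := d)
        gcongr
    _ = _ := by ring

/-- The dilation lemma: the set where a bounded function increases by at least `c` between the
dilates `1 - θ` and `1 + θ` (about the point `y`) is small. -/
theorem dil_measure (y : Ed d) {R θ L c : ℝ} (hR : 0 ≤ R) (hθ : 0 ≤ θ) (hθ1 : θ ≤ 1 / 2)
    (hc : 0 < c) {F : Ed d → ℝ} (hF : Measurable F) (h0 : ∀ x, 0 ≤ F x) (hL : ∀ x, F x ≤ L)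
    (hmono : ∀ (v : Ed d) (s t : ℝ), 0 ≤ s → s ≤ t → F (y + s • v) ≤ F (y + t • v)) (S : Set (Ed d))
    (hS : S ⊆ closedBall y R)
    (hS' : ∀ x ∈ S, F (y + (1 - θ) • (x - y)) + c ≤ F (y + (1 + θ) • (x - y))) :
    volume S ≤ ENNReal.ofReal (d * 2 ^ d * vB d * (L / c) * θ * R ^ d) := by
  set F' : Ed d → ℝ := fun u => F (y + u) with hF'
  have hF'm : Measurable F' := hF.comp (measurable_const_add y)
  set T : Set (Ed d) := {u | u ∈ closedBall (0 : Ed d) R ∧ c ≤ F' ((1 + θ) • u) - F' ((1 - θ) • u)}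
    with hT
  have hTm : MeasurableSet T := by
    apply measurableSet_closedBall.inter
    exact measurableSet_le measurable_const ((hF'm.comp (measurable_const_smul _)).sub
      (hF'm.comp (measurable_const_smul _)))
  have hST : S ⊆ (fun x => x - y) ⁻¹' T := by
    intro x hx
    refine ⟨?_, ?_⟩
    · have := hS hx
      rw [mem_closedBall, dist_eq_norm] at this
      simpa using this
    · have := hS' x hx
      simp only [hF']
      linarith
  have hpre : volume ((fun x => x - y) ⁻¹' T) = volume T := by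
    simp [sub_eq_add_neg]
  have hint := dil_integral hR hθ hθ1 hF'm (fun x => h0 _) (fun x => hL _)
  have hTfin : volume T ≠ ⊤ :=
    (measure_lt_top_of_subset (fun u hu => hu.1) measure_closedBall_lt_top.ne).ne
  have hintb : ∀ (c r : ℝ), IntegrableOn (fun u : Ed d => F' (c • u)) (closedBall 0 r) := by
    intro c r
    refine Measure.integrableOn_of_bounded (M := L) measure_closedBall_lt_top.ne
      (hF'm.comp (measurable_const_smul c)).aestronglyMeasurable ?_
    filter_upwards with u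
    rw [Real.norm_of_nonneg (h0 _)]
    exact hL _
  have hnn : ∀ u : Ed d, 0 ≤ F' ((1 + θ) • u) - F' ((1 - θ) • u) := by
    intro u
    have := hmono u (1 - θ) (1 + θ) (by linarith) (by linarith)
    simp only [hF']
    linarith
  have h1 : c * (volume : Measure (Ed d)).real T
      ≤ ∫ u in closedBall (0 : Ed d) R, (F' ((1 + θ) • u) - F' ((1 - θ) • u)) := by
    calc c * (volume : Measure (Ed d)).real T = ∫ _u in T, c := by
          rw [setIntegral_const, smul_eq_mul, mul_comm]
      _ ≤ ∫ u in T, (F' ((1 + θ) • u) - F' ((1 - θ) • u)) := by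
          apply setIntegral_mono_on (integrableOn_const hTfin) _ hTm
          · intro u hu
            exact hu.2
          · exact ((hintb _ _).sub (hintb _ _)).mono_set fun u hu => hu.1
      _ ≤ _ := by
          apply setIntegral_mono_set ((hintb _ _).sub (hintb _ _))
          · filter_upwards with u
            exact hnn u
          · exact (show T ⊆ closedBall (0 : Ed d) R from fun u hu => hu.1).eventuallyLE
  have h2 : (volume : Measure (Ed d)).real T ≤ d * 2 ^ d * vB d * (L / c) * θ * R ^ d := by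
    have h3 := h1.trans hint
    rw [mul_comm, ← le_div_iff₀ hc] at h3
    refine h3.trans (le_of_eq ?_)
    field_simp
  calc volume S ≤ volume T := by rw [← hpre]; exact measure_mono hST
    _ = ENNReal.ofReal ((volume : Measure (Ed d)).real T) := by
        rw [ofReal_measureReal hTfin]
    _ ≤ _ := ENNReal.ofReal_le_ofReal h2

end Vale.Agent.P137.C.Meas
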