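import Vale.Agent.P137.C.Meas.Base
import Vale.Agent.P137.C.Meas.Dilate

/-!
# P137, centered operator, block V: general facts about majorants
-/

open MeasureTheory Set Filter Topology
open scoped ENNReal NNReal

namespace Vale.Agent.P137.U.Cen.Mj

open Vale.Agent.P137 Vale.Agent.P137.U Vale.Agent.P137.U.Cen
open Vale.Agent.P137.C.Meas (vB vB_pos vB_nonneg dil_measure volume_closedBall_eq)

variable {d : ℕ}

theorem maj_mono {B : Blk d} {b b' : ℝ} {P P' : E d → ℝ → ℝ → Prop} (h : B.Maj b P)
    (hb : b ≤ b') (hP : ∀ x r v, B.near x → B.rad r → P' x r v → P x r v) : B.Maj b' P' := by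
  obtain ⟨F, hF, hI, hv⟩ := h
  refine ⟨F, hF, hI.trans ?_, fun x r v hx hr hp => hv x r v hx hr (hP x r v hx hr hp)⟩
  apply ENNReal.ofReal_le_ofReal
  have := (pow_pos (s_pos B) d).le
  gcongr

theorem maj_or {B : Blk d} {b b' : ℝ} {P P' Q : E d → ℝ → ℝ → Prop} (h : B.Maj b P)
    (h' : B.Maj b' P') (hb : 0 ≤ b) (hb' : 0 ≤ b')
    (hP : ∀ x r v, B.near x → B.rad r → Q x r v → P x r v ∨ P' x r v) : B.Maj (b + b') Q := by
  obtain ⟨F, hF, hI, hv⟩ := h
  obtain ⟨F', hF', hI', hv'⟩ := h'
  have hs := (pow_pos (s_pos B) d).le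
  refine ⟨fun x => F x + F' x, hF.add hF', ?_, fun x r v hx hr hp => ?_⟩
  · rw [lintegral_add_left hF, mul_add, ENNReal.ofReal_add (by positivity) (by positivity)]
    exact add_le_add hI hI'
  · rcases hP x r v hx hr hp with h1 | h1
    · exact (hv x r v hx hr h1).trans le_self_add
    · exact (hv' x r v hx hr h1).trans le_add_self

/-- Constant majorant. -/
theorem maj_const (B : Blk d) {G : ℝ} (hG : 0 ≤ G) :
    B.Maj ((√d * 2) ^ d * vB d * G) (fun _ _ v => v ≤ G) := by
  have hs := s_pos B
  refine ⟨(Metric.closedBall (pt (co B.j B.n)) (√d * (2 * B.s))).indicator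
    (fun _ => ENNReal.ofReal G), measurable_const.indicator Metric.isClosed_closedBall.measurableSet,
    ?_, fun x r v hx hr hv => ?_⟩
  · rw [lintegral_indicator Metric.isClosed_closedBall.measurableSet, setLIntegral_const,
      volume_closedBall_eq _ (by positivity), ← ENNReal.ofReal_mul hG]
    apply ENNReal.ofReal_le_ofReal
    apply le_of_eq
    rw [← mul_assoc √(d : ℝ), mul_pow]
    ring
  · rw [indicator_of_mem]
    · exact ENNReal.ofReal_le_ofReal hv
    · rw [Metric.mem_closedBall, dist_eq_norm]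
      apply norm_le_of_abs_apply_le (by positivity)
      intro i
      have h1 := hx i
      simp only [PiLp.sub_apply, pt_apply, co]
      push_cast
      exact h1

/-- Majorant given by a family of sets indexed by the cells. -/
theorem maj_sets (B : Blk d) (m : ℕ) {κ a : ℝ} (ha : 0 ≤ a) (S : Lat d → Set (E d))
    (hSm : ∀ c, MeasurableSet (S c)) (hSv : ∀ c, volume (S c) ≤ ENNReal.ofReal (κ * B.s ^ d))
    (hκ : 0 ≤ κ) :
    B.Maj (a * κ * B.tot m) (fun x _ v => ∃ T : Finset (Lat d), T ⊆ B.cells m ∧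
      (∀ c ∈ T, x ∈ S c) ∧ v ≤ a * ∑ c ∈ T, B.MM m c) := by
  have hs := s_pos B
  refine ⟨fun x => ∑ c ∈ B.cells m, (S c).indicator (fun _ => ENNReal.ofReal (a * B.MM m c)) x,
    ?_, ?_, ?_⟩
  · exact Finset.measurable_sum _ fun c _ => measurable_const.indicator (hSm c)
  · rw [lintegral_finsetSum _ fun c _ => measurable_const.indicator (hSm c)]
    calc ∑ c ∈ B.cells m, ∫⁻ x, (S c).indicator (fun _ => ENNReal.ofReal (a * B.MM m c)) x
        ≤ ∑ c ∈ B.cells m, ENNReal.ofReal (a * B.MM m c * (κ * B.s ^ d)) := by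
          refine Finset.sum_le_sum fun c _ => ?_
          have h0 := MM_nonneg B m c
          rw [lintegral_indicator (hSm c), setLIntegral_const,
            ENNReal.ofReal_mul (by positivity : 0 ≤ a * B.MM m c)]
          gcongr
          exact hSv c
      _ = ENNReal.ofReal (∑ c ∈ B.cells m, a * B.MM m c * (κ * B.s ^ d)) := by
          rw [ENNReal.ofReal_sum_of_nonneg]
          intro c _
          have h0 := MM_nonneg B m c
          positivity
      _ ≤ ENNReal.ofReal (B.s ^ d * (a * κ * B.tot m)) := by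
          apply ENNReal.ofReal_le_ofReal
          rw [← Finset.sum_mul, ← Finset.mul_sum]
          have h1 := sum_MM_le B m
          calc a * (∑ c ∈ B.cells m, B.MM m c) * (κ * B.s ^ d)
              ≤ a * B.tot m * (κ * B.s ^ d) := by gcongr
            _ = B.s ^ d * (a * κ * B.tot m) := by ring
  · rintro x r v _ _ ⟨T, hT, hx, hv⟩
    calc ENNReal.ofReal v ≤ ENNReal.ofReal (∑ c ∈ T, a * B.MM m c) := by
          rw [← Finset.mul_sum]; exact ENNReal.ofReal_le_ofReal hv
      _ = ∑ c ∈ T, ENNReal.ofReal (a * B.MM m c) := by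
          rw [ENNReal.ofReal_sum_of_nonneg]
          intro c _
          exact mul_nonneg ha (MM_nonneg B m c)
      _ = ∑ c ∈ T, (S c).indicator (fun _ => ENNReal.ofReal (a * B.MM m c)) x := by
          refine Finset.sum_congr rfl fun c hc => ?_
          rw [indicator_of_mem (hx c hc)]
      _ ≤ _ := Finset.sum_le_sum_of_subset hT

end Vale.Agent.P137.U.Cen.Mj
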