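import Vale.Agent.P137.Bdl.B1

/-!
# Block V (part): the slab estimate
-/

open MeasureTheory Set
open scoped ENNReal NNReal

namespace Vale.Agent.P137.C.Meas

open Vale.Agent.P137

variable {d : ℕ}

/-- A plank of half-width `τ` inside a ball of radius `ρ` has measure at most
`2 τ / ρ * |B(p, 2ρ)|`. -/
theorem plank_measure (u p : E d) (hu : ‖u‖ = 1) (c τ ρ : ℝ) (hρ : 0 < ρ) :
    volume {x : E d | x ∈ Metric.closedBall p ρ ∧ |inner ℝ u x - c| ≤ τ} ≤
      ENNReal.ofReal (2 * τ / ρ) * volume (Metric.closedBall p (2 * ρ)) := by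
  set S : Set (E d) := {x : E d | x ∈ Metric.closedBall p ρ ∧ |inner ℝ u x - c| ≤ τ} with hS
  have hSc : IsClosed S := by
    have h2 : IsClosed {x : E d | |inner ℝ u x - c| ≤ τ} :=
      isClosed_le (((continuous_const.inner continuous_id).sub continuous_const).abs)
        continuous_const
    exact Metric.isClosed_closedBall.inter h2
  have hSm : MeasurableSet S := hSc.measurableSet
  have h1 : ENNReal.ofReal ρ * volume S ≤
      ENNReal.ofReal (2 * τ) * volume (Metric.closedBall p (2 * ρ)) := by
    calc ENNReal.ofReal ρ * volume S = ∫⁻ _ in Icc (0 : ℝ) ρ, volume S := by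
          rw [setLIntegral_const, Real.volume_Icc, sub_zero, mul_comm]
      _ = ∫⁻ t in Icc (0 : ℝ) ρ, ∫⁻ x : E d, S.indicator 1 (x - t • u) := by
          congr 1
          ext t
          rw [lintegral_sub_right_eq_self (fun x : E d => S.indicator (1 : E d → ℝ≥0∞) x) (t • u),
            lintegral_indicator_one hSm]
      _ = ∫⁻ x : E d, ∫⁻ t in Icc (0 : ℝ) ρ, S.indicator 1 (x - t • u) := by
          apply lintegral_lintegral_swap
          apply Measurable.aemeasurable
          have : Measurable (fun q : ℝ × E d => q.2 - q.1 • u) := by fun_prop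
          exact (measurable_one.indicator hSm).comp this
      _ ≤ ∫⁻ x : E d, (Metric.closedBall p (2 * ρ)).indicator
            (fun _ => ENNReal.ofReal (2 * τ)) x := by
          apply lintegral_mono
          intro x
          by_cases hx : x ∈ Metric.closedBall p (2 * ρ)
          · rw [indicator_of_mem hx]
            calc ∫⁻ t in Icc (0 : ℝ) ρ, S.indicator 1 (x - t • u)
                ≤ ∫⁻ t, (Icc (inner ℝ u x - c - τ) (inner ℝ u x - c + τ)).indicator 1 t := by
                  apply (setLIntegral_le_lintegral _ _).trans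
                  apply lintegral_mono
                  intro t
                  by_cases h : x - t • u ∈ S
                  · have h2 := h.2
                    rw [inner_sub_right, inner_smul_right, real_inner_self_eq_norm_sq, hu] at h2
                    have h3 : t ∈ Icc (inner ℝ u x - c - τ) (inner ℝ u x - c + τ) := by
                      rw [abs_le] at h2
                      constructor <;> linarith [h2.1, h2.2]
                    simp only [indicator_of_mem h, indicator_of_mem h3, Pi.one_apply, le_refl]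
                  · simp only [indicator_of_notMem h]
                    exact zero_le
              _ = ENNReal.ofReal (2 * τ) := by
                  rw [lintegral_indicator_one measurableSet_Icc, Real.volume_Icc]
                  congr 1
                  ring
          · rw [indicator_of_notMem hx]
            apply le_of_eq
            rw [setLIntegral_eq_zero_iff measurableSet_Icc]
            · apply Filter.Eventually.of_forall
              intro t ht
              rw [indicator_of_notMem]
              intro h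
              apply hx
              have h1 := h.1
              rw [Metric.mem_closedBall, dist_eq_norm] at h1 ⊢
              calc ‖x - p‖ = ‖(x - t • u - p) + t • u‖ := by congr 1; abel
                _ ≤ ‖x - t • u - p‖ + ‖t • u‖ := norm_add_le _ _
                _ ≤ ρ + ρ := by
                  rw [norm_smul, hu, mul_one, Real.norm_of_nonneg ht.1]
                  exact add_le_add h1 ht.2
                _ = 2 * ρ := by ring
            · have : Measurable (fun t : ℝ => x - t • u) := by fun_prop
              exact (measurable_one.indicator hSm).comp this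
      _ = ENNReal.ofReal (2 * τ) * volume (Metric.closedBall p (2 * ρ)) := by
          rw [lintegral_indicator_const Metric.isClosed_closedBall.measurableSet]
  rw [ENNReal.ofReal_div_of_pos hρ, mul_comm, mul_div_assoc'] 
  rw [ENNReal.le_div_iff_mul_le (by simp [hρ]) (by simp)]
  calc volume S * ENNReal.ofReal ρ = ENNReal.ofReal ρ * volume S := mul_comm _ _
    _ ≤ _ := h1
    _ = _ := mul_comm _ _

/-- The slab estimate. -/
theorem slab_measure (d : ℕ) : ∃ C : ℝ, 0 < C ∧ ∀ (a b p : E d) (ρ t : ℝ), 0 < ρ → 0 ≤ t →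
    a ≠ b → ‖a - p‖ ≤ ρ → ‖b - p‖ ≤ ρ →
    volume {x : E d | x ∈ Metric.closedBall p ρ ∧ |‖x - a‖ - ‖x - b‖| ≤ t} ≤
      ENNReal.ofReal (C * ρ ^ d * (t / ‖a - b‖)) := by
  refine ⟨4 * 2 ^ d * U.uvol d, by have := U.uvol_pos (d := d); positivity, ?_⟩
  intro a b p ρ t hρ ht hab ha hb
  have hab' : 0 < ‖a - b‖ := norm_pos_iff.2 (sub_ne_zero.2 hab)
  set u : E d := ‖a - b‖⁻¹ • (b - a) with hu
  have hu1 : ‖u‖ = 1 := by
    rw [hu, norm_smul, norm_inv, norm_norm, norm_sub_rev b a, inv_mul_cancel₀ hab'.ne']
  have key : {x : E d | x ∈ Metric.closedBall p ρ ∧ |‖x - a‖ - ‖x - b‖| ≤ t} ⊆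
      {x : E d | x ∈ Metric.closedBall p ρ ∧
        |inner ℝ u x - inner ℝ u ((1 / 2 : ℝ) • (a + b))| ≤ 2 * ρ * t / ‖a - b‖} := by
    rintro x ⟨hx, hxt⟩
    refine ⟨hx, ?_⟩
    rw [Metric.mem_closedBall, dist_eq_norm] at hx
    have h1 : ‖x - a‖ ≤ 2 * ρ := by
      calc ‖x - a‖ = ‖(x - p) - (a - p)‖ := by congr 1; abel
        _ ≤ ‖x - p‖ + ‖a - p‖ := norm_sub_le _ _
        _ ≤ 2 * ρ := by linarith
    have h2 : ‖x - b‖ ≤ 2 * ρ := by
      calc ‖x - b‖ = ‖(x - p) - (b - p)‖ := by congr 1; abel
        _ ≤ ‖x - p‖ + ‖b - p‖ := norm_sub_le _ _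
        _ ≤ 2 * ρ := by linarith
    have h3 : ‖x - a‖ ^ 2 - ‖x - b‖ ^ 2 = 2 * inner ℝ (b - a) (x - (1 / 2 : ℝ) • (a + b)) := by
      rw [← real_inner_self_eq_norm_sq, ← real_inner_self_eq_norm_sq]
      simp only [inner_sub_left, inner_sub_right, inner_add_right, inner_smul_right]
      rw [real_inner_comm x a, real_inner_comm x b, real_inner_comm a b]
      ring
    have h4 : inner ℝ u x - inner ℝ u ((1 / 2 : ℝ) • (a + b)) =
        (‖x - a‖ ^ 2 - ‖x - b‖ ^ 2) / (2 * ‖a - b‖) := by
      rw [h3, ← inner_sub_right, hu, inner_smul_left]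
      simp only [conj_trivial]
      field_simp
    rw [h4, abs_div, abs_of_pos (by positivity : 0 < 2 * ‖a - b‖)]
    rw [div_le_div_iff₀ (by positivity) hab']
    have h5 : |‖x - a‖ ^ 2 - ‖x - b‖ ^ 2| ≤ t * (4 * ρ) := by
      have : ‖x - a‖ ^ 2 - ‖x - b‖ ^ 2 = (‖x - a‖ - ‖x - b‖) * (‖x - a‖ + ‖x - b‖) := by ring
      rw [this, abs_mul, abs_of_nonneg (by positivity : 0 ≤ ‖x - a‖ + ‖x - b‖)]
      gcongr
      linarith
    calc |‖x - a‖ ^ 2 - ‖x - b‖ ^ 2| * ‖a - b‖ ≤ t * (4 * ρ) * ‖a - b‖ := by gcongr
      _ = 2 * ρ * t * (2 * ‖a - b‖) := by ring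
  calc volume {x : E d | x ∈ Metric.closedBall p ρ ∧ |‖x - a‖ - ‖x - b‖| ≤ t}
      ≤ _ := measure_mono key
    _ ≤ _ := plank_measure u p hu1 _ _ ρ hρ
    _ = ENNReal.ofReal (2 * (2 * ρ * t / ‖a - b‖) / ρ) *
          ENNReal.ofReal ((2 * ρ) ^ d * U.uvol d) := by
        rw [U.ptr_vol_ball p (by positivity)]
    _ = ENNReal.ofReal (4 * 2 ^ d * U.uvol d * ρ ^ d * (t / ‖a - b‖)) := by
        rw [← ENNReal.ofReal_mul (by positivity)]
        congr 1
        field_simp
        ring

end Vale.Agent.P137.C.Meas
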